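import Mathlib

namespace Vale.Agent.Lib.P160.H86

open Finset

/-- A vector with at most `m` distinct values has an exact pattern with `m` labels. -/
theorem exists_exact_pattern {n m : ℕ} (v : Fin n → ℝ) (hv : (univ.image v).card ≤ m) :
    ∃ p : Fin n → Fin m, ∀ j j', p j = p j' ↔ v j = v j' := by
  classical
  have hcard : Fintype.card ↥(univ.image v) ≤ Fintype.card (Fin m) := by
    rw [Fintype.card_coe, Fintype.card_fin]
    exact hv
  obtain ⟨e⟩ := Function.Embedding.nonempty_of_card_le hcard
  refine ⟨fun j => e ⟨v j, mem_image_of_mem v (mem_univ j)⟩, ?_⟩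
  intro j j'
  constructor
  · intro h
    exact congrArg Subtype.val (e.injective h)
  · intro h
    have hs : (⟨v j, mem_image_of_mem v (mem_univ j)⟩ : ↥(univ.image v))
        = ⟨v j', mem_image_of_mem v (mem_univ j')⟩ := Subtype.ext h
    change e _ = e _
    rw [hs]

/-- Relabelling: the level sets of `v` get labels in `Fin (L + I.card)` such that the labels
used outside `I` are below `L`, when `v` takes at most `L` values outside `I`. -/
theorem exists_relabel {n : ℕ} (v : Fin n → ℝ) (I : Finset (Fin n)) (L : ℕ)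
    (hL : ((univ \ I).image v).card ≤ L) :
    ∃ p' : Fin n → Fin (L + I.card), (∀ j j', p' j = p' j' ↔ v j = v j') ∧
      ∀ j, j ∉ I → (p' j).val < L := by
  classical
  set VT := (univ \ I).image v with hVT
  set VO := (univ.image v) \ VT with hVO
  have hVOsub : VO ⊆ I.image v := by
    intro y hy
    rw [hVO, mem_sdiff, mem_image] at hy
    obtain ⟨⟨j, _, rfl⟩, hnot⟩ := hy
    by_cases hj : j ∈ I
    · exact mem_image_of_mem v hj
    · exact absurd (mem_image_of_mem v (mem_sdiff.mpr ⟨mem_univ j, hj⟩)) hnot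
  have hVOcard : VO.card ≤ I.card := (card_le_card hVOsub).trans card_image_le
  have hc1 : Fintype.card ↥VT ≤ Fintype.card (Fin L) := by
    rw [Fintype.card_coe, Fintype.card_fin]
    exact hL
  have hc2 : Fintype.card ↥VO ≤ Fintype.card (Fin I.card) := by
    rw [Fintype.card_coe, Fintype.card_fin]
    exact hVOcard
  obtain ⟨e1⟩ := Function.Embedding.nonempty_of_card_le hc1
  obtain ⟨e2⟩ := Function.Embedding.nonempty_of_card_le hc2
  have hmemVO : ∀ j, v j ∉ VT → v j ∈ VO := fun j h =>
    mem_sdiff.mpr ⟨mem_image_of_mem v (mem_univ j), h⟩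
  let p' : Fin n → Fin (L + I.card) := fun j =>
    if h : v j ∈ VT then Fin.castAdd I.card (e1 ⟨v j, h⟩)
    else Fin.natAdd L (e2 ⟨v j, hmemVO j h⟩)
  have hp1 : ∀ j (h : v j ∈ VT), p' j = Fin.castAdd I.card (e1 ⟨v j, h⟩) := by
    intro j h
    simp only [p', dif_pos h]
  have hp2 : ∀ j (h : v j ∉ VT), p' j = Fin.natAdd L (e2 ⟨v j, hmemVO j h⟩) := by
    intro j h
    simp only [p', dif_neg h]
  refine ⟨p', ?_, ?_⟩
  · intro j j'
    constructor
    · intro h
      by_cases h1 : v j ∈ VT
      · by_cases h2 : v j' ∈ VT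
        · rw [hp1 j h1, hp1 j' h2] at h
          exact congrArg Subtype.val (e1.injective (Fin.castAdd_injective _ _ h))
        · rw [hp1 j h1, hp2 j' h2] at h
          exfalso
          have hv := congrArg Fin.val h
          rw [Fin.val_castAdd, Fin.val_natAdd] at hv
          have := (e1 ⟨v j, h1⟩).isLt
          omega
      · by_cases h2 : v j' ∈ VT
        · rw [hp2 j h1, hp1 j' h2] at h
          exfalso
          have hv := congrArg Fin.val h
          rw [Fin.val_castAdd, Fin.val_natAdd] at hv
          have := (e1 ⟨v j', h2⟩).isLt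
          omega
        · rw [hp2 j h1, hp2 j' h2] at h
          exact congrArg Subtype.val (e2.injective (Fin.natAdd_injective _ _ h))
    · intro h
      by_cases h1 : v j ∈ VT
      · have h2 : v j' ∈ VT := by rw [← h]; exact h1
        have hs : (⟨v j, h1⟩ : ↥VT) = ⟨v j', h2⟩ := Subtype.ext h
        rw [hp1 j h1, hp1 j' h2, hs]
      · have h2 : v j' ∉ VT := by rw [← h]; exact h1
        have hs : (⟨v j, hmemVO j h1⟩ : ↥VO) = ⟨v j', hmemVO j' h2⟩ := Subtype.ext h
        rw [hp2 j h1, hp2 j' h2, hs]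
  · intro j hj
    have h1 : v j ∈ VT := mem_image_of_mem v (mem_sdiff.mpr ⟨mem_univ j, hj⟩)
    rw [hp1 j h1, Fin.val_castAdd]
    exact (e1 _).isLt

end Vale.Agent.Lib.P160.H86
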